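import Vale.Agent.P216.Upgrade

namespace Vale.Agent.Results.P216.SymmetricMetrics

open Vale.Agent.P216
open scoped RealInnerProductSpace

/-- Infinitely many closed geodesics from isometric symmetry. -/
theorem result :
    ∀ (N : ℕ) (M : Set (Euc N)), IsClosedSubmanifold M → IsPreconnected M →
      HasNonabelianSymmetry M ∨ HasTorusSymmetry M ∨ HasCircleWithFixedPoint M ∨
        HasHalfTurnWithFixedPoint M →
      InfinitelyManyClosedGeodesics M := by
  intro N M hM hconn h
  obtain ⟨S⟩ := hM.tube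
  rcases h with ⟨A, hA, hs, h0⟩ | ⟨A, B, hA, hB, hc, heff⟩ | ⟨A, hA, hne, hz⟩ |
    ⟨A, hA, ⟨x, hx, hxf⟩, hmove⟩
  · exact nonabelian_infinite S hA h0 hs
  · exact torus_infinite S hconn hA hB hc heff
  · exact circle_infinite S hconn hA hne hz
  · have hi : ∀ y ∈ M, rot (rot_skew hA) (1 / 2) (rot (rot_skew hA) (1 / 2) y) = y := fun y _ => by
      rw [rot_apply, rot_apply, ← flow_add, add_halves, one_smul, hA.2.1]
      rfl
    exact halfturn_infinite S hconn (rot_skew hA) hA.2.2 hi hx hxf hmove

end Vale.Agent.Results.P216.SymmetricMetrics
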